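import Mathlib

/-! Statement-level definitions for P157 (free energy of Gaussian perceptrons). -/

open MeasureTheory ProbabilityTheory

namespace P157

/-- One step of the Parisi recursion: `(1/m) log E exp (m φ(y + √a Z))`, and `E φ(y + √a Z)` if
`m = 0`, with `Z` a standard Gaussian. -/
noncomputable def step (m a : ℝ) (φ : ℝ → ℝ) (y : ℝ) : ℝ :=
  if m = 0 then ∫ z, φ (y + √a * z) ∂(gaussianReal 0 1)
  else m⁻¹ * Real.log (∫ z, Real.exp (m * φ (y + √a * z)) ∂(gaussianReal 0 1))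

/-- Increments of a path: `q 0, q 1 - q 0, q 2 - q 1, ...`. -/
def inc (q : ℕ → ℝ) : ℕ → ℝ
  | 0 => q 0
  | j + 1 => q (j + 1) - q j

/-- `levels m q F n j` applies the steps of levels `j, j+1, ..., j+n-1` (outermost first) to `F`. -/
noncomputable def levels (m q : ℕ → ℝ) (F : ℝ → ℝ) : ℕ → ℕ → ℝ → ℝ
  | 0, _ => F
  | n + 1, j => step (m j) (inc q j) (levels m q F n (j + 1))

/-- The `k`-step Parisi recursion with terminal function `F`, evaluated at `0`. -/
noncomputable def parisi (k : ℕ) (m q : ℕ → ℝ) (F : ℝ → ℝ) : ℝ := levels m q F (k + 1) 0 0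

/-- `0 = m 0 < m 1 < ... < m k < m (k+1) = 1`. -/
def IsPartition (k : ℕ) (m : ℕ → ℝ) : Prop :=
  m 0 = 0 ∧ m (k + 1) = 1 ∧ ∀ j ≤ k, m j < m (j + 1)

/-- `0 ≤ q 0 ≤ q 1 ≤ ... ≤ q k`. -/
def IsPath (k : ℕ) (q : ℕ → ℝ) : Prop := 0 ≤ q 0 ∧ ∀ j < k, q j ≤ q (j + 1)

/-- `∫_0^1 p(u) s(u) du` for the step functions with values `p j`, `s j` on `[m j, m (j+1))`. -/
def pair (k : ℕ) (m p s : ℕ → ℝ) : ℝ := ∑ j ∈ Finset.range (k + 1), (m (j + 1) - m j) * (p j * s j)

/-- Energetic (pattern) term: Parisi recursion for `log E exp f(y + √(1 - p k) Z)`. -/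
noncomputable def energy (f : ℝ → ℝ) (k : ℕ) (m p : ℕ → ℝ) : ℝ :=
  parisi k m p (step 1 (1 - p k) f)

/-- One Ising spin in the hierarchical field with covariance path `s`. -/
noncomputable def spinTerm (k : ℕ) (m s : ℕ → ℝ) : ℝ :=
  parisi k m s (fun y => Real.log (Real.cosh y)) - s k / 2

/-- The values whose supremum is the Ising entropy of the overlap path `p`. -/
def isingEntropySet (k : ℕ) (m p : ℕ → ℝ) : Set ℝ :=
  {x | ∃ s, IsPath k s ∧ x = spinTerm k m s + pair k m p s / 2}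

/-- Entropic term of the Ising perceptron. -/
noncomputable def isingEntropy (k : ℕ) (m p : ℕ → ℝ) : ℝ := sSup (isingEntropySet k m p)

/-- `D j = 1 - p k + ∑_{j < i ≤ k} m i (p i - p (i-1))`. -/
def dd (k : ℕ) (m p : ℕ → ℝ) (j : ℕ) : ℝ :=
  1 - p k + ∑ i ∈ Finset.Ico j k, m (i + 1) * (p (i + 1) - p i)

/-- Entropic term of the spherical perceptron (Crisanti-Sommers form). -/
noncomputable def sphereEntropy (k : ℕ) (m p : ℕ → ℝ) : ℝ :=
  (Real.log (1 - p k) + p 0 / dd k m p 0 +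
    ∑ j ∈ Finset.range k, (m (j + 1))⁻¹ * Real.log (dd k m p j / dd k m p (j + 1))) / 2

/-- All values of the variational functional `α · energy + entropy` over finite-step order
parameters `(k, m, p)` with `0 ≤ p 0 ≤ ... ≤ p k < 1`. -/
def values (ent : ℕ → (ℕ → ℝ) → (ℕ → ℝ) → ℝ) (α : ℝ) (f : ℝ → ℝ) : Set ℝ :=
  {x | ∃ k m p, IsPartition k m ∧ IsPath k p ∧ p k < 1 ∧ x = α * energy f k m p + ent k m p}

/-- Uniform probability measure on the cube `{-1,1}^N`. -/
noncomputable def isingMeasure (N : ℕ) : Measure (Fin N → ℝ) :=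
  Measure.pi fun _ => (2⁻¹ : ENNReal) • Measure.dirac (1 : ℝ) + (2⁻¹ : ENNReal) • Measure.dirac (-1 : ℝ)

/-- Normalized surface measure on the unit sphere of `ℝ^N`. -/
noncomputable def unitSphereMeasure (N : ℕ) :
    Measure (Metric.sphere (0 : EuclideanSpace ℝ (Fin N)) 1) :=
  ((volume : Measure (EuclideanSpace ℝ (Fin N))).toSphere Set.univ)⁻¹ •
    (volume : Measure (EuclideanSpace ℝ (Fin N))).toSphere

/-- Normalized surface measure on the sphere `‖x‖² = N`. -/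
noncomputable def sphereMeasure (N : ℕ) : Measure (Fin N → ℝ) :=
  (unitSphereMeasure N).map
    fun (u : Metric.sphere (0 : EuclideanSpace ℝ (Fin N)) 1) (i : Fin N) => √(N : ℝ) * u.1 i

/-- The pressure `p_N(f)` for patterns `g` and configuration measure `μ`. -/
noncomputable def pressure (f : ℝ → ℝ) {N M : ℕ} (μ : Measure (Fin N → ℝ))
    (g : Fin M → Fin N → ℝ) : ℝ :=
  (N : ℝ)⁻¹ * Real.log (∫ x, Real.exp (∑ a, f ((∑ i, g a i * x i) / √(N : ℝ))) ∂μ)

/-- `E p_N(f)` with `M = ⌊α N⌋` independent standard Gaussian patterns. -/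
noncomputable def meanPressure (μ : ∀ N, Measure (Fin N → ℝ)) (α : ℝ) (f : ℝ → ℝ) (N : ℕ) : ℝ :=
  ∫ g : Fin ⌊α * N⌋₊ → Fin N → ℝ, pressure f (μ N) g
    ∂(Measure.pi fun _ => Measure.pi fun _ => gaussianReal 0 1)

end P157
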