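import Vale.Agent.P157.Core

/-! P157 Stab: existence of positive stable laws.
Plan. Let `0 < α < 1`, `c = ∫_0^∞ (1 - exp (-w^{-1/α})) dw ∈ (0, ∞)`; by scaling
`∫_0^∞ (1 - exp (-l w^{-1/α})) dw = c l^α`. For `n ≥ 1` let `T_n = ∑_{i<n} (c' w_i)^{-1/α}` with `w_i`
uniform on `(0, n)`; `E exp (-l T_n) = (1 - d_n(l)/n)^n → exp (-l^α)` after normalising `c'`. Push
`T_n` to `[0,1]` by `y = exp (-T)`; `ProbabilityMeasure (Set.Icc 0 1)` is compact, a limit point `η`
has `∫ y^l dη = exp (-l^α)` for `l > 0` (`y ↦ y^l` is continuous), and `η {0} = 0` (let `l → 0`),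
`η {1} = 0` (let `l → ∞`). Put `ν = η.map (log (-log y))`. (Alternatively use Bernstein's theorem
in Vale/Agent/P206/U/Bern.lean, or any other construction.) Integrability of `u = log T`:
`E T⁻¹ = ∫_0^∞ exp (-l^α) dl < ∞` gives the negative part; for the positive part
`P(T > t) ≤ (1 - e^{-1})⁻¹ (1 - exp (-t^{-α})) ≤ 2 t^{-α}`, so `P(u > s) ≤ 2 e^{-α s}`.
-/

open MeasureTheory ProbabilityTheory Real
open scoped BigOperators Matrix

namespace P157


open Set Filter Topology

private lemma st_meas (β l c : ℝ) : Measurable fun w : ℝ => exp (-(l * (c * w) ^ (-β))) := by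
  fun_prop

private lemma st_int {β : ℝ} (hβ : 1 < β) :
    IntegrableOn (fun w : ℝ => 1 - exp (-(w ^ (-β)))) (Ioi 0) := by
  have hm : Measurable fun w : ℝ => 1 - exp (-(w ^ (-β))) := by fun_prop
  have hb : ∀ w : ℝ, 0 < w → 0 ≤ 1 - exp (-(w ^ (-β))) := fun w hw => by
    rw [sub_nonneg, exp_le_one_iff, neg_nonpos]; positivity
  rw [← Ioc_union_Ioi_eq_Ioi zero_le_one]
  refine IntegrableOn.union ?_ ?_
  · refine IntegrableOn.of_bound (by simp) hm.aestronglyMeasurable 1 ?_
    filter_upwards [ae_restrict_mem measurableSet_Ioc] with w hw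
    rw [Real.norm_of_nonneg (hb w hw.1)]
    linarith [exp_pos (-(w ^ (-β)))]
  · refine Integrable.mono' (integrableOn_Ioi_rpow_of_lt (a := -β) (by linarith) one_pos)
      hm.aestronglyMeasurable ?_
    filter_upwards [ae_restrict_mem measurableSet_Ioi] with w hw
    rw [Real.norm_of_nonneg (hb w (one_pos.trans hw))]
    linarith [add_one_le_exp (-(w ^ (-β)))]

private lemma st_pos {β : ℝ} (hβ : 1 < β) : 0 < ∫ w in Ioi (0 : ℝ), (1 - exp (-(w ^ (-β)))) := by
  have hb : ∀ w : ℝ, 0 < w → 0 < 1 - exp (-(w ^ (-β))) := fun w hw => by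
    rw [sub_pos, exp_lt_one_iff, neg_lt_zero]; positivity
  rw [setIntegral_pos_iff_support_of_nonneg_ae ?_ (st_int hβ)]
  · have : (Function.support fun w : ℝ => 1 - exp (-(w ^ (-β)))) ∩ Ioi 0 = Ioi 0 :=
      inter_eq_right.2 fun w hw => (hb w hw).ne'
    rw [this]
    simp
  · filter_upwards [ae_restrict_mem measurableSet_Ioi] with w hw
    exact (hb w hw).le

private lemma st_scale {α : ℝ} (h0 : 0 < α) (h1 : α < 1) : ∃ c : ℝ, 0 < c ∧ ∀ l : ℝ, 0 < l →
    Tendsto (fun n : ℕ => ∫ w in Ioc (0 : ℝ) (n + 1), (1 - exp (-(l * (c * w) ^ (-α⁻¹))))) atTop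
      (𝓝 (l ^ α)) := by
  have hβ : 1 < α⁻¹ := one_lt_inv_iff₀.2 ⟨h0, h1⟩
  set c := ∫ w in Ioi (0 : ℝ), (1 - exp (-(w ^ (-α⁻¹)))) with hc
  have hc0 : 0 < c := st_pos hβ
  refine ⟨c, hc0, fun l hl => ?_⟩
  have hla : 0 < l ^ α := by positivity
  have hκ : 0 < c / l ^ α := by positivity
  have e : ∀ w ∈ Ioi (0 : ℝ), 1 - exp (-((c / l ^ α * w) ^ (-α⁻¹)))
      = 1 - exp (-(l * (c * w) ^ (-α⁻¹))) := by
    intro w hw
    have hw' : 0 < w := hw
    have : c / l ^ α * w = (c * w) / l ^ α := by ring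
    rw [this, div_rpow (by positivity) hla.le, ← rpow_mul hl.le, mul_neg,
      mul_inv_cancel₀ h0.ne', rpow_neg_one, div_inv_eq_mul, mul_comm]
  have hi : IntegrableOn (fun w : ℝ => 1 - exp (-(l * (c * w) ^ (-α⁻¹)))) (Ioi 0) := by
    have := (integrableOn_Ioi_comp_mul_left_iff (fun w : ℝ => 1 - exp (-(w ^ (-α⁻¹)))) 0 hκ).2
      (by rw [mul_zero]; exact st_int hβ)
    exact this.congr_fun e measurableSet_Ioi
  have hv : ∫ w in Ioi (0 : ℝ), (1 - exp (-(l * (c * w) ^ (-α⁻¹)))) = l ^ α := by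
    rw [← setIntegral_congr_fun measurableSet_Ioi e,
      integral_comp_mul_left_Ioi (fun w : ℝ => 1 - exp (-(w ^ (-α⁻¹)))) 0 hκ, mul_zero, ← hc,
      smul_eq_mul]
    field_simp
  have ht : Tendsto (fun n : ℕ => (n : ℝ) + 1) atTop atTop :=
    tendsto_atTop_add_const_right _ _ tendsto_natCast_atTop_atTop
  have := intervalIntegral_tendsto_integral_Ioi 0 hi ht
  rw [hv] at this
  refine this.congr fun n => ?_
  rw [intervalIntegral.integral_of_le (by positivity)]

private lemma st_approx {β c : ℝ} (hc : 0 < c) (n : ℕ) :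
    ∃ η : ProbabilityMeasure (Icc (0 : ℝ) 1), ∀ l : ℝ, 0 < l →
      ∫ y, (y : ℝ) ^ l ∂(η : Measure (Icc (0 : ℝ) 1)) = (1 + -(∫ w in Ioc (0 : ℝ) (n + 1),
        (1 - exp (-(l * (c * w) ^ (-β))))) / (n + 1)) ^ (n + 1) := by
  have hn : (0 : ℝ) < n + 1 := by positivity
  set U : Measure ℝ := (ENNReal.ofReal (n + 1))⁻¹ • volume.restrict (Ioc (0 : ℝ) (n + 1)) with hU
  have hUp : IsProbabilityMeasure U := ⟨by
    rw [hU, Measure.smul_apply, Measure.restrict_apply_univ, Real.volume_Ioc, sub_zero, smul_eq_mul,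
      ENNReal.inv_mul_cancel (by simpa using hn) ENNReal.ofReal_ne_top]⟩
  have hy : ∀ w : Fin (n + 1) → ℝ, exp (-∑ i, |(c * w i) ^ (-β)|) ∈ Icc (0 : ℝ) 1 := fun w =>
    ⟨(exp_pos _).le, by
      rw [exp_le_one_iff, neg_nonpos]; exact Finset.sum_nonneg fun i _ => abs_nonneg _⟩
  let Φ : (Fin (n + 1) → ℝ) → Icc (0 : ℝ) 1 := fun w => ⟨_, hy w⟩
  have hΦ : Measurable Φ := Measurable.subtype_mk (by fun_prop)
  refine ⟨⟨(Measure.pi fun _ : Fin (n + 1) => U).map Φ,
    Measure.isProbabilityMeasure_map hΦ.aemeasurable⟩, fun l hl => ?_⟩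
  have hcont : Continuous fun y : Icc (0 : ℝ) 1 => (y : ℝ) ^ l :=
    (Real.continuous_rpow_const hl.le).comp continuous_subtype_val
  rw [ProbabilityMeasure.coe_mk, integral_map hΦ.aemeasurable hcont.aestronglyMeasurable]
  have e1 : ∀ w : Fin (n + 1) → ℝ, ((Φ w : Icc (0 : ℝ) 1) : ℝ) ^ l
      = ∏ i, exp (-(l * |(c * w i) ^ (-β)|)) := by
    intro w
    simp only [Φ]
    rw [← exp_mul, ← exp_sum, neg_mul, Finset.sum_mul, Finset.sum_neg_distrib]
    simp only [mul_comm l]
  simp only [e1]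
  rw [integral_fintype_prod_eq_pow (fun w : ℝ => exp (-(l * |(c * w) ^ (-β)|))), Fintype.card_fin]
  congr 1
  have hi : IntegrableOn (fun w : ℝ => exp (-(l * (c * w) ^ (-β)))) (Ioc 0 (n + 1)) := by
    refine IntegrableOn.of_bound (by simp) (st_meas β l c).aestronglyMeasurable 1 ?_
    filter_upwards [ae_restrict_mem measurableSet_Ioc] with w hw
    have := hw.1
    rw [Real.norm_of_nonneg (exp_pos _).le, exp_le_one_iff, neg_nonpos]
    positivity
  rw [hU, integral_smul_measure, integral_sub (integrable_const _) hi,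
    setIntegral_congr_fun (g := fun w : ℝ => exp (-(l * (c * w) ^ (-β)))) measurableSet_Ioc
      (fun w hw => by
        have := hw.1
        simp only
        rw [abs_of_pos (by positivity)])]
  simp only [ENNReal.toReal_inv, ENNReal.toReal_ofReal hn.le, smul_eq_mul, integral_const,
    MeasurableSet.univ, measureReal_restrict_apply, univ_inter, Real.volume_real_Ioc, sub_zero,
    mul_one, max_eq_left hn.le]
  field_simp
  ring

private lemma st_limit {α : ℝ} (h0 : 0 < α) (h1 : α < 1) :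
    ∃ η : Measure (Icc (0 : ℝ) 1), IsProbabilityMeasure η ∧ ∀ l : ℝ, 0 < l →
      ∫ y, (y : ℝ) ^ l ∂η = exp (-(l ^ α)) := by
  obtain ⟨c, hc, hlim⟩ := st_scale h0 h1
  choose η hη using st_approx (β := α⁻¹) hc
  obtain ⟨ν, -, hν⟩ := (isCompact_univ (X := ProbabilityMeasure (Icc (0 : ℝ) 1))).exists_mapClusterPt
    (f := atTop) (u := η) (by simp)
  refine ⟨ν, inferInstance, fun l hl => ?_⟩
  have hcont : Continuous fun y : Icc (0 : ℝ) 1 => (y : ℝ) ^ l :=
    (Real.continuous_rpow_const hl.le).comp continuous_subtype_val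
  have h2 := hν.continuousAt_comp (ProbabilityMeasure.continuous_integral_continuousMap
    (⟨_, hcont⟩ : C(Icc (0 : ℝ) 1, ℝ))).continuousAt
  set d : ℕ → ℝ := fun n => ∫ w in Ioc (0 : ℝ) (n + 1), (1 - exp (-(l * (c * w) ^ (-α⁻¹)))) with hd
  have h3 : Tendsto (fun n : ℕ => (n : ℝ) * (-d (n - 1) / n)) atTop (𝓝 (-(l ^ α))) := by
    rw [← tendsto_add_atTop_iff_nat 1]
    refine (hlim l hl).neg.congr fun n => ?_
    simp only [Nat.add_sub_cancel, hd]
    push_cast
    field_simp
  have h4 := (tendsto_add_atTop_iff_nat 1).2 (Real.tendsto_one_add_pow_exp_of_tendsto h3)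
  have h5 : Tendsto (fun n => ∫ y, (y : ℝ) ^ l ∂(η n : Measure (Icc (0 : ℝ) 1))) atTop
      (𝓝 (exp (-(l ^ α)))) := by
    refine h4.congr fun n => ?_
    rw [hη n l hl]
    simp only [Nat.add_sub_cancel, hd]
    push_cast
    rfl
  exact eq_of_nhds_neBot (h2.clusterPt.mono h5)

private lemma st_ae {α : ℝ} (h0 : 0 < α) {η : Measure (Icc (0 : ℝ) 1)} [IsProbabilityMeasure η]
    (h : ∀ l : ℝ, 0 < l → ∫ y, (y : ℝ) ^ l ∂η = exp (-(l ^ α))) :
    ∀ᵐ y : Icc (0 : ℝ) 1 ∂η, 0 < (y : ℝ) ∧ (y : ℝ) < 1 := by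
  have hint : ∀ l : ℝ, 0 < l → Integrable (fun y : Icc (0 : ℝ) 1 => (y : ℝ) ^ l) η := fun l hl =>
    Continuous.integrable_of_hasCompactSupport
      ((Real.continuous_rpow_const hl.le).comp continuous_subtype_val)
      (HasCompactSupport.of_compactSpace _)
  have m0 : MeasurableSet {y : Icc (0 : ℝ) 1 | (y : ℝ) = 0} :=
    measurableSet_eq_fun measurable_subtype_coe measurable_const
  have m1 : MeasurableSet {y : Icc (0 : ℝ) 1 | (y : ℝ) = 1} :=
    measurableSet_eq_fun measurable_subtype_coe measurable_const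
  have a0 : η.real {y : Icc (0 : ℝ) 1 | (y : ℝ) = 0} ≤ 0 := by
    have hl : Tendsto (fun l : ℝ => 1 - exp (-(l ^ α))) (𝓝[>] 0) (𝓝 (1 - exp (-((0 : ℝ) ^ α)))) :=
      (Continuous.tendsto (continuous_const.sub (continuous_exp.comp
        (Real.continuous_rpow_const h0.le).neg)) 0).mono_left nhdsWithin_le_nhds
    rw [zero_rpow h0.ne', neg_zero, exp_zero, sub_self] at hl
    refine ge_of_tendsto hl ?_
    filter_upwards [self_mem_nhdsWithin] with l hl
    have hl' : 0 < l := hl
    rw [← integral_indicator_one m0, ← h l hl']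
    have := integral_sub (integrable_const (1 : ℝ)) (hint l hl')
    rw [integral_const, probReal_univ, one_smul] at this
    rw [← this]
    refine integral_mono ((integrable_const 1).indicator m0) ((integrable_const 1).sub (hint l hl'))
      fun y => ?_
    by_cases hy : (y : ℝ) = 0
    · rw [indicator_of_mem (by exact hy)]
      simp [hy, zero_rpow hl'.ne']
    · rw [indicator_of_notMem (by exact hy)]
      exact sub_nonneg.2 (rpow_le_one y.2.1 y.2.2 hl'.le)
  have a1 : η.real {y : Icc (0 : ℝ) 1 | (y : ℝ) = 1} ≤ 0 := by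
    have hl : Tendsto (fun l : ℝ => exp (-(l ^ α))) atTop (𝓝 0) :=
      tendsto_exp_neg_atTop_nhds_zero.comp (tendsto_rpow_atTop h0)
    refine ge_of_tendsto hl ?_
    filter_upwards [eventually_gt_atTop 0] with l hl'
    rw [← integral_indicator_one m1, ← h l hl']
    refine integral_mono ((integrable_const 1).indicator m1) (hint l hl') fun y => ?_
    by_cases hy : (y : ℝ) = 1
    · rw [indicator_of_mem (by exact hy)]
      simp [hy]
    · rw [indicator_of_notMem (by exact hy)]
      exact rpow_nonneg y.2.1 l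
  have b0 : ∀ᵐ y : Icc (0 : ℝ) 1 ∂η, ¬ (y : ℝ) = 0 := by
    rw [ae_iff]
    simpa [measureReal_eq_zero_iff] using le_antisymm a0 measureReal_nonneg
  have b1 : ∀ᵐ y : Icc (0 : ℝ) 1 ∂η, ¬ (y : ℝ) = 1 := by
    rw [ae_iff]
    simpa [measureReal_eq_zero_iff] using le_antisymm a1 measureReal_nonneg
  filter_upwards [b0, b1] with y hy0 hy1
  exact ⟨lt_of_le_of_ne y.2.1 (Ne.symm hy0), lt_of_le_of_ne y.2.2 hy1⟩

private lemma st_lap_int (ν : Measure ℝ) [IsProbabilityMeasure ν] {l : ℝ} (hl : 0 ≤ l) :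
    Integrable (fun u => exp (-(l * exp u))) ν := by
  refine Integrable.of_bound (Measurable.aestronglyMeasurable (by fun_prop)) 1
    (ae_of_all _ fun u => ?_)
  rw [Real.norm_of_nonneg (exp_pos _).le, exp_le_one_iff, neg_nonpos]
  positivity

private lemma st_tail {α : ℝ} {ν : Measure ℝ} [IsProbabilityMeasure ν]
    (h : ∀ l : ℝ, 0 ≤ l → ∫ u, exp (-(l * exp u)) ∂ν = exp (-(l ^ α))) (t : ℝ) :
    ν.real {u | t ≤ |u|} ≤ 6 * exp (-α * t) := by
  have m : MeasurableSet {u : ℝ | t ≤ |u|} := measurableSet_le measurable_const measurable_norm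
  have i1 := st_lap_int ν (exp_pos (-t)).le
  have i2 := st_lap_int ν (exp_pos t).le
  have h1 : ν.real {u | t ≤ |u|}
      ≤ ∫ u, 3 * ((1 - exp (-(exp (-t) * exp u))) + exp (-(exp t * exp u))) ∂ν := by
    rw [← integral_indicator_one m]
    refine integral_mono ((integrable_const 1).indicator m)
      ((((integrable_const 1).sub i1).add i2).const_mul 3) fun u => ?_
    have p1 : exp (-(exp (-t) * exp u)) ≤ 1 := by
      rw [exp_le_one_iff, neg_nonpos]; positivity
    have p2 := exp_pos (-(exp t * exp u))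
    have e1 := Real.exp_neg_one_lt_d9
    have e2 := Real.exp_neg_one_gt_d9
    by_cases hu : t ≤ |u|
    · rw [indicator_of_mem (by exact hu)]
      simp only [Pi.one_apply]
      rcases le_abs.1 hu with hu | hu
      · have : exp (-(exp (-t) * exp u)) ≤ exp (-1) := by
          rw [exp_le_exp, neg_le_neg_iff, ← exp_add]
          exact one_le_exp (by linarith)
        linarith
      · have : exp (-1) ≤ exp (-(exp t * exp u)) := by
          rw [exp_le_exp, neg_le_neg_iff, ← exp_add]
          exact exp_le_one_iff.2 (by linarith)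
        linarith
    · rw [indicator_of_notMem (by exact hu)]
      linarith
  have i3 : Integrable (fun u => 1 - exp (-(exp (-t) * exp u))) ν := (integrable_const 1).sub i1
  rw [integral_const_mul, integral_add i3 i2,
    integral_sub (integrable_const 1) i1, h _ (exp_pos _).le, h _ (exp_pos _).le, integral_const,
    probReal_univ, one_smul, ← exp_mul, ← exp_mul] at h1
  have q1 := add_one_le_exp (-exp (-t * α))
  have q2 : exp (-exp (t * α)) ≤ exp (-(t * α)) := by
    rw [exp_le_exp, neg_le_neg_iff]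
    linarith [add_one_le_exp (t * α)]
  rw [show -α * t = -(t * α) by ring]
  rw [neg_mul] at q1 h1
  linarith

private lemma st_integrable {α : ℝ} (h0 : 0 < α) {ν : Measure ℝ} [IsProbabilityMeasure ν]
    (h : ∀ l : ℝ, 0 ≤ l → ∫ u, exp (-(l * exp u)) ∂ν = exp (-(l ^ α))) :
    Integrable (fun u : ℝ => u) ν := by
  refine ⟨measurable_id.aestronglyMeasurable, ?_⟩
  rw [hasFiniteIntegral_iff_norm, lintegral_eq_lintegral_meas_le ν
    (ae_of_all _ fun u => norm_nonneg u) measurable_norm.aemeasurable]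
  have hi : IntegrableOn (fun t : ℝ => 6 * exp (-α * t)) (Ioi 0) :=
    (exp_neg_integrableOn_Ioi 0 h0).const_mul 6
  refine lt_of_le_of_lt (lintegral_mono fun t => ?_) hi.lintegral_lt_top
  rw [← ofReal_measureReal]
  exact ENNReal.ofReal_le_ofReal (st_tail h t)

theorem exists_stab {α : ℝ} (h0 : 0 < α) (h1 : α < 1) : ∃ ν, IsStab α ν := by
  obtain ⟨η, hp, hη⟩ := st_limit h0 h1
  have hm : Measurable fun y : Icc (0 : ℝ) 1 => log (-log (y : ℝ)) :=
    measurable_subtype_coe.log.neg.log
  have hP : IsProbabilityMeasure (η.map fun y : Icc (0 : ℝ) 1 => log (-log (y : ℝ))) :=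
    Measure.isProbabilityMeasure_map hm.aemeasurable
  have hl : ∀ l : ℝ, 0 ≤ l → ∫ u, exp (-(l * exp u))
      ∂(η.map fun y : Icc (0 : ℝ) 1 => log (-log (y : ℝ))) = exp (-(l ^ α)) := by
    intro l hl
    rcases hl.eq_or_lt with rfl | hl
    · simp only [zero_mul, neg_zero, exp_zero, integral_const, probReal_univ, one_smul,
        zero_rpow h0.ne']
    rw [integral_map hm.aemeasurable (Measurable.aestronglyMeasurable (by fun_prop)), ← hη l hl]
    refine integral_congr_ae ?_
    filter_upwards [st_ae h0 hη] with y hy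
    rw [exp_log (neg_pos.2 (log_neg hy.1 hy.2)), rpow_def_of_pos hy.1]
    congr 1
    ring
  exact ⟨_, hP, hl, st_integrable h0 hl⟩


theorem isStab_stab {α : ℝ} (h0 : 0 < α) (h1 : α < 1) : IsStab α (stab α) := by
  have h := exists_stab h0 h1
  unfold stab
  rw [dif_pos h]
  exact h.choose_spec

instance stab_prob (α : ℝ) : IsProbabilityMeasure (stab α) := by
  unfold stab
  split_ifs with h
  · exact h.choose_spec.prob
  · infer_instance

theorem stab_integrable (α : ℝ) : Integrable (fun u : ℝ => u) (stab α) := by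
  unfold stab
  split_ifs with h
  · exact h.choose_spec.int
  · exact integrable_dirac (by simp)

instance PU_prob (L k : ℕ) (m : ℕ → ℝ) : IsProbabilityMeasure (PU L k m) := by
  unfold PU; infer_instance

/-- a law on `ℝ` is determined by the Laplace transform of `exp u` -/
theorem ext_of_lap {ν ν' : Measure ℝ} [IsProbabilityMeasure ν] [IsProbabilityMeasure ν']
    (h : ∀ l : ℝ, 0 ≤ l → ∫ u, exp (-(l * exp u)) ∂ν = ∫ u, exp (-(l * exp u)) ∂ν') : ν = ν' := by
  have hc : Continuous fun u : ℝ => exp (-exp u) := by fun_prop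
  let g : BoundedContinuousFunction ℝ ℝ := BoundedContinuousFunction.ofNormedAddCommGroup _ hc 1
    fun u => by
      rw [Real.norm_of_nonneg (exp_pos _).le, exp_le_one_iff, neg_nonpos]; positivity
  have hg : ∀ u, g u = exp (-exp u) := fun u => rfl
  let A : StarSubalgebra ℝ (BoundedContinuousFunction ℝ ℝ) :=
    { toSubalgebra := (Polynomial.aeval g).range
      star_mem' := fun {x} hx => by
        have : star x = x := by ext; simp
        rwa [this] }
  refine ext_of_forall_mem_subalgebra_integral_eq_of_polish (𝕜 := ℝ) (A := A) ?_ ?_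
  · intro v v' hvv'
    use g
    simp only [StarSubalgebra.coe_toSubalgebra, StarSubalgebra.coe_map, Set.mem_image,
      SetLike.mem_coe, exists_exists_and_eq_and, ne_eq]
    refine ⟨⟨g, ⟨Polynomial.X, by simp⟩, rfl⟩, fun e => hvv' ?_⟩
    rw [hg, hg, exp_eq_exp, neg_inj, exp_eq_exp] at e
    exact e
  · rintro _ ⟨p, rfl⟩
    induction p using Polynomial.induction_on' with
    | add p q hp hq =>
      simp only [AlgHom.toRingHom_eq_coe, RingHom.coe_coe, map_add,
        BoundedContinuousFunction.coe_add, Pi.add_apply] at hp hq ⊢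
      rw [integral_add (BoundedContinuousFunction.integrable _ _)
        (BoundedContinuousFunction.integrable _ _), integral_add
        (BoundedContinuousFunction.integrable _ _) (BoundedContinuousFunction.integrable _ _),
        hp, hq]
    | monomial k a =>
      have e : ∀ u, (Polynomial.aeval g (Polynomial.monomial k a)) u
          = a * exp (-((k : ℝ) * exp u)) := by
        intro u
        rw [Polynomial.aeval_monomial, BoundedContinuousFunction.mul_apply,
          BoundedContinuousFunction.pow_apply, hg, ← exp_nat_mul, mul_neg]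
        simp
      simp only [AlgHom.toRingHom_eq_coe, RingHom.coe_coe, e, integral_const_mul]
      rw [h k (Nat.cast_nonneg k)]


end P157
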